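import Mathlib

namespace Vale.Agent.Lib.P016

open scoped NumberTheorySymbols

/-- Divisors of `2 ^ k * q` for a prime `q`: either a divisor of `2 ^ k`, or `q` times one. -/
theorem dvd_two_pow_mul_prime {q : ℕ} (hq : q.Prime) (k d : ℕ) (hd : d ∣ 2 ^ k * q) :
    d ∣ 2 ^ k ∨ ∃ e, e ∣ 2 ^ k ∧ d = e * q := by
  by_cases hqd : q ∣ d
  · right
    obtain ⟨e, rfl⟩ := hqd
    refine ⟨e, ?_, mul_comm q e⟩
    have h2 : q * e ∣ q * 2 ^ k := by rwa [mul_comm q (2 ^ k)]
    exact (Nat.mul_dvd_mul_iff_left hq.pos).mp h2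
  · left
    have hcop : Nat.Coprime d q := (Nat.Coprime.symm ((Nat.Prime.coprime_iff_not_dvd hq).mpr hqd))
    exact hcop.dvd_of_dvd_mul_right hd

/-- If `p - 1 = 2 ^ k * q` with `q` prime and `k ≥ 1`, then a non-square `x` of `ZMod p`
with `x ^ (2 ^ k) ≠ 1` has multiplicative order `p - 1`. -/
theorem orderOf_eq_of_not_isSquare {p q k : ℕ} [Fact p.Prime] (hq : q.Prime) (hk : 1 ≤ k)
    (hp : p - 1 = 2 ^ k * q) {x : ZMod p} (hx0 : x ≠ 0) (hx : x ^ (2 ^ k) ≠ 1)
    (hns : ¬ IsSquare x) : orderOf x = p - 1 := by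
  have hp2 : p / 2 = 2 ^ (k - 1) * q := by
    have h1 : p = 2 ^ k * q + 1 := by
      have := (Fact.out : p.Prime).one_lt
      omega
    have h2 : 2 ^ k = 2 * 2 ^ (k - 1) := by
      rw [← pow_succ']
      congr 1
      omega
    rw [h1, h2]
    have : 2 * 2 ^ (k - 1) * q + 1 = 2 * (2 ^ (k - 1) * q) + 1 := by ring
    rw [this]
    omega
  have hdvd : orderOf x ∣ 2 ^ k * q := by
    rw [← hp]
    exact ZMod.orderOf_dvd_card_sub_one hx0
  have hnd : ¬ orderOf x ∣ 2 ^ (k - 1) * q := by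
    intro h
    apply hns
    rw [ZMod.euler_criterion p hx0, hp2]
    exact orderOf_dvd_iff_pow_eq_one.mp h
  have hnd2 : ¬ orderOf x ∣ 2 ^ k := fun h => hx (orderOf_dvd_iff_pow_eq_one.mp h)
  rcases dvd_two_pow_mul_prime hq k _ hdvd with h | ⟨e, he, heq⟩
  · exact absurd h hnd2
  · -- `e ∣ 2 ^ k`, so `e = 2 ^ j` with `j ≤ k`; if `j < k` then the order divides `2 ^ (k-1) * q`
    obtain ⟨j, hj, rfl⟩ := (Nat.dvd_prime_pow Nat.prime_two).mp he
    rcases Nat.lt_or_ge j k with hlt | hge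
    · exfalso
      apply hnd
      rw [heq]
      exact Nat.mul_dvd_mul (pow_dvd_pow 2 (by omega)) dvd_rfl
    · have : j = k := le_antisymm hj hge
      rw [heq, this, hp]

end Vale.Agent.Lib.P016

namespace Vale.Agent.Lib.P016

open scoped NumberTheorySymbols

/-- A square `x ≠ 0` in `ZMod p` (`p` an odd prime) does not have order `p - 1`. -/
theorem orderOf_ne_of_isSquare {p : ℕ} [Fact p.Prime] (hp2 : p ≠ 2) {x : ZMod p}
    (hsq : IsSquare x) : orderOf x ≠ p - 1 := by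
  have hpp : p.Prime := Fact.out
  have h3 : 3 ≤ p := by
    have := hpp.two_le
    omega
  intro h
  by_cases hx0 : x = 0
  · subst hx0
    rw [orderOf_eq_zero_iff.mpr] at h
    · omega
    · rw [isOfFinOrder_iff_pow_eq_one]
      rintro ⟨n, hn, hn1⟩
      rw [zero_pow (by omega)] at hn1
      exact zero_ne_one hn1
  · have h1 : x ^ (p / 2) = 1 := (ZMod.euler_criterion p hx0).mp hsq
    have h2 : orderOf x ∣ p / 2 := orderOf_dvd_iff_pow_eq_one.mpr h1
    have h4 : p - 1 ≤ p / 2 := by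
      rw [← h]
      exact Nat.le_of_dvd (by omega) h2
    omega

/-- Criterion for primes `p` with `p - 1 = 2 ^ k * q`, `q` prime, `k ≥ 1`: an integer `a` with
`p ∤ a ^ (2 ^ k) - 1` is a primitive root modulo `p` iff it is not a square modulo `p`. -/
theorem primitive_root_iff_not_isSquare {p q k : ℕ} (hpp : p.Prime) (hq : q.Prime) (hk : 1 ≤ k)
    (hp : p - 1 = 2 ^ k * q) (a : ℤ) (ha : ¬ (p : ℤ) ∣ a ^ (2 ^ k) - 1) :
    orderOf (a : ZMod p) = p - 1 ↔ ¬ IsSquare (a : ZMod p) := by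
  haveI : Fact p.Prime := ⟨hpp⟩
  have hp2 : p ≠ 2 := by
    rintro rfl
    have h2 : (2 : ℕ) ∣ 2 ^ k * q := Dvd.dvd.mul_right (dvd_pow_self 2 (by omega)) q
    rw [← hp] at h2
    omega
  constructor
  · intro h hsq
    exact orderOf_ne_of_isSquare hp2 hsq h
  · intro hns
    have hx0 : (a : ZMod p) ≠ 0 := by
      intro h0
      apply hns
      rw [h0]
      exact IsSquare.zero
    have hx : (a : ZMod p) ^ (2 ^ k) ≠ 1 := by
      intro h1
      apply ha
      rw [← ZMod.intCast_zmod_eq_zero_iff_dvd]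
      push_cast
      rw [h1, sub_self]
    exact orderOf_eq_of_not_isSquare hq hk hp hx0 hx hns

/-- Jacobi-symbol form: if `b` is odd with `J(a | b) = -1`, then `a` is a primitive root modulo
every prime `p ≡ b (mod 4|a|)` with `p - 1 = 2 ^ k * q`, `q` prime, `p ∤ a ^ (2 ^ k) - 1`. -/
theorem primitive_root_of_jacobi (a : ℤ) (b : ℕ) (hb : Odd b) (hJ : J(a | b) = -1)
    {p q k : ℕ} (hpp : p.Prime) (hq : q.Prime) (hk : 1 ≤ k) (hp : p - 1 = 2 ^ k * q)
    (hmod : p % (4 * a.natAbs) = b % (4 * a.natAbs))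
    (ha : ¬ (p : ℤ) ∣ a ^ (2 ^ k) - 1) : orderOf (a : ZMod p) = p - 1 := by
  haveI : Fact p.Prime := ⟨hpp⟩
  have hodd : Odd p := by
    rcases hpp.eq_two_or_odd' with h2 | ho
    · exfalso
      subst h2
      have h2 : (2 : ℕ) ∣ 2 ^ k * q := Dvd.dvd.mul_right (dvd_pow_self 2 (by omega)) q
      rw [← hp] at h2
      omega
    · exact ho
  rw [primitive_root_iff_not_isSquare hpp hq hk hp a ha]
  rw [← legendreSym.eq_neg_one_iff p, jacobiSym.legendreSym.to_jacobiSym,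
    jacobiSym.mod_right a hodd, hmod, ← jacobiSym.mod_right a hb, hJ]

end Vale.Agent.Lib.P016
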