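import Vale.Agent.Lib.P016.Witness

namespace Vale.Agent.Lib.P016

open scoped NumberTheorySymbols

/-- For a non-square integer `a ≠ -1` and `k ≤ 2`, a prime `p > |a| ^ 4` does not divide
`a ^ (2 ^ k) - 1`. -/
theorem not_dvd_pow_sub_one {a : ℤ} (hsq : ¬ IsSquare a) (ha : a ≠ -1) {k : ℕ} (hk : k = 1 ∨ k = 2)
    {p : ℕ} (hp : a.natAbs ^ 4 < p) : ¬ (p : ℤ) ∣ a ^ (2 ^ k) - 1 := by
  intro hdvd
  have hn0 : a.natAbs ≠ 0 := by
    intro h
    apply hsq
    rw [Int.natAbs_eq_zero.mp h]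
    exact IsSquare.zero
  have hn1 : 1 ≤ a.natAbs := Nat.one_le_iff_ne_zero.mpr hn0
  have heven : Even (2 ^ k) := by
    rcases hk with rfl | rfl <;> decide
  have hapow : a ^ (2 ^ k) = ((a.natAbs ^ (2 ^ k) : ℕ) : ℤ) := by
    rw [Nat.cast_pow, Int.natCast_natAbs, Even.pow_abs heven]
  have hN1 : 1 ≤ a.natAbs ^ (2 ^ k) := Nat.one_le_pow _ _ hn1
  have hcast : a ^ (2 ^ k) - 1 = ((a.natAbs ^ (2 ^ k) - 1 : ℕ) : ℤ) := by
    rw [hapow, Nat.cast_sub hN1]
    simp
  rw [hcast, Int.natCast_dvd_natCast] at hdvd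
  have hle : a.natAbs ^ (2 ^ k) ≤ a.natAbs ^ 4 := by
    apply Nat.pow_le_pow_right hn1
    rcases hk with rfl | rfl <;> norm_num
  have hzero : a.natAbs ^ (2 ^ k) - 1 = 0 := Nat.eq_zero_of_dvd_of_lt hdvd (by omega)
  have hone : a.natAbs ^ (2 ^ k) = 1 := by omega
  have hk0 : 2 ^ k ≠ 0 := by positivity
  have hn : a.natAbs = 1 := by
    rcases Nat.pow_eq_one.mp hone with h | h
    · exact h
    · exact absurd h hk0
  rcases Int.natAbs_eq a with h | h
  · apply hsq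
    rw [h, hn]
    exact ⟨1, by norm_num⟩
  · apply ha
    rw [h, hn]
    norm_num

/-- Unconditional structure theorem: every non-square integer `a ≠ -1` is a primitive root
modulo all large primes `p = 2 ^ k q + 1` with `q` prime in a suitable admissible residue class
modulo `4 |a|`, for a suitable `k ∈ {1, 2}`. -/
theorem primitive_root_at_prime_pairs (a : ℤ) (hsq : ¬ IsSquare a) (ha : a ≠ -1) :
    ∃ k r : ℕ, (k = 1 ∨ k = 2) ∧ Nat.Coprime r (4 * a.natAbs) ∧
      Nat.Coprime (2 ^ k * r + 1) (4 * a.natAbs) ∧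
      ∀ q : ℕ, q.Prime → (2 ^ k * q + 1).Prime → q % (4 * a.natAbs) = r % (4 * a.natAbs) →
        a.natAbs ^ 4 < q → orderOf (a : ZMod (2 ^ k * q + 1)) = 2 ^ k * q := by
  obtain ⟨k, r, hk, hr, hcr, hcb, hJ⟩ := exists_good a hsq
  have hk1 : 1 ≤ k := by
    rcases hk with rfl | rfl <;> norm_num
  have hbodd : Odd (2 ^ k * r + 1) := by
    apply Even.add_one
    exact Even.mul_right (Nat.even_pow.mpr ⟨even_two, by omega⟩) r
  refine ⟨k, r, hk, ?_, ?_, ?_⟩
  · apply Nat.Coprime.mul_right _ hcr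
    exact Nat.Coprime.pow_right 2 (Nat.coprime_two_right.mpr hr)
  · apply Nat.Coprime.mul_right _ hcb
    exact Nat.Coprime.pow_right 2 (Nat.coprime_two_right.mpr hbodd)
  · intro q hq hp hmod hlarge
    have hmod' : (2 ^ k * q + 1) % (4 * a.natAbs) = (2 ^ k * r + 1) % (4 * a.natAbs) :=
      (Nat.ModEq.mul_left (2 ^ k) hmod).add_right 1
    have hqp : q < 2 ^ k * q + 1 := by
      have : 1 * q ≤ 2 ^ k * q := Nat.mul_le_mul_right q (Nat.one_le_two_pow)
      omega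
    have hnd : ¬ ((2 ^ k * q + 1 : ℕ) : ℤ) ∣ a ^ (2 ^ k) - 1 :=
      not_dvd_pow_sub_one hsq ha hk (lt_trans hlarge hqp)
    have := primitive_root_of_jacobi a (2 ^ k * r + 1) hbodd hJ hp hq hk1
      (by simp) hmod' hnd
    rw [this, Nat.add_sub_cancel]

/-- A special case of Dickson's conjecture on simultaneous prime values of linear forms:
prime pairs `(q, 2 ^ k q + 1)`, `k ∈ {1, 2}`, with `q` in any residue class `r` modulo `M`
(`4 ∣ M`) for which both `r` and `2 ^ k r + 1` are coprime to `M`, occur beyond every bound. -/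
def PrimePairsInProgressions : Prop :=
  ∀ k M r : ℕ, (k = 1 ∨ k = 2) → 0 < M → 4 ∣ M → Nat.Coprime r M →
    Nat.Coprime (2 ^ k * r + 1) M →
    ∀ N : ℕ, ∃ q, N < q ∧ q.Prime ∧ (2 ^ k * q + 1).Prime ∧ q % M = r % M

/-- Conditional on `PrimePairsInProgressions`, every non-square integer `a ≠ -1` is a primitive
root modulo infinitely many primes. -/
theorem artin_of_prime_pairs (h : PrimePairsInProgressions) (a : ℤ) (hsq : ¬ IsSquare a)
    (ha : a ≠ -1) :
    Set.Infinite {p : ℕ | p.Prime ∧ ¬ (p : ℤ) ∣ a ∧ orderOf (a : ZMod p) = p - 1} := by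
  have hn0 : a.natAbs ≠ 0 := by
    intro h
    apply hsq
    rw [Int.natAbs_eq_zero.mp h]
    exact IsSquare.zero
  have hn1 : 1 ≤ a.natAbs := Nat.one_le_iff_ne_zero.mpr hn0
  obtain ⟨k, r, hk, hcr, hcb, hall⟩ := primitive_root_at_prime_pairs a hsq ha
  rw [← Nat.frequently_atTop_iff_infinite, Filter.frequently_atTop]
  intro N
  obtain ⟨q, hNq, hq, hp, hmod⟩ := h k (4 * a.natAbs) r hk (by omega) (Dvd.intro _ rfl) hcr hcb
    (max N (a.natAbs ^ 4))
  have hqp : q < 2 ^ k * q + 1 := by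
    have : 1 * q ≤ 2 ^ k * q := Nat.mul_le_mul_right q (Nat.one_le_two_pow)
    omega
  have hNq' : N < q := lt_of_le_of_lt (le_max_left _ _) hNq
  have hlarge : a.natAbs ^ 4 < q := lt_of_le_of_lt (le_max_right _ _) hNq
  refine ⟨2 ^ k * q + 1, by omega, hp, ?_, ?_⟩
  · intro hdvd
    rw [Int.natCast_dvd] at hdvd
    have h1 := Nat.le_of_dvd (by omega) hdvd
    have h2 : a.natAbs ≤ a.natAbs ^ 4 := Nat.le_self_pow (by norm_num) _
    omega
  · rw [hall q hq hp hmod hlarge, Nat.add_sub_cancel]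

end Vale.Agent.Lib.P016
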