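import Vale.Agent.Lib.P016.Criterion

namespace Vale.Agent.Lib.P016

open scoped NumberTheorySymbols

/-- `J(b | m) = χ₄ m` when `m` is odd and `m ∣ b + 1`. -/
theorem jacobi_of_dvd_succ {m b : ℕ} (hm : Odd m) (hbm : m ∣ b + 1) :
    J((b : ℤ) | m) = ZMod.χ₄ m := by
  rw [← jacobiSym.at_neg_one hm]
  apply jacobiSym.mod_left'
  have h : (b : ℤ) ≡ -1 [ZMOD (m : ℤ)] := by
    rw [Int.modEq_iff_dvd]
    have h1 : ((m : ℕ) : ℤ) ∣ ((b + 1 : ℕ) : ℤ) := Int.natCast_dvd_natCast.mpr hbm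
    have h2 : (-1 : ℤ) - b = -((b + 1 : ℕ) : ℤ) := by push_cast; ring
    rw [h2]
    exact (dvd_neg).mpr h1
  exact h

/-- For odd `m` and `b ≡ 3 (mod 4)` with `m ∣ b + 1`: `J(m | b) = 1`. -/
theorem jacobi_eq_one_of_three_mod_four {m b : ℕ} (hm : Odd m) (hb4 : b % 4 = 3)
    (hbm : m ∣ b + 1) : J((m : ℤ) | b) = 1 := by
  have hbodd : Odd b := Nat.odd_iff.mpr (by omega)
  rcases Nat.odd_mod_four_iff.mp (Nat.odd_iff.mp hm) with h1 | h3
  · rw [jacobiSym.quadratic_reciprocity_one_mod_four h1 hbodd, jacobi_of_dvd_succ hm hbm,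
      ZMod.χ₄_nat_one_mod_four h1]
  · rw [jacobiSym.quadratic_reciprocity_three_mod_four h3 hb4, jacobi_of_dvd_succ hm hbm,
      ZMod.χ₄_nat_three_mod_four h3]
    norm_num

/-- For `m ≡ 3 (mod 4)` and `b ≡ 1 (mod 4)` with `m ∣ b + 1`: `J(m | b) = -1`. -/
theorem jacobi_eq_neg_one_of_one_mod_four {m b : ℕ} (hm4 : m % 4 = 3) (hb4 : b % 4 = 1)
    (hbm : m ∣ b + 1) : J((m : ℤ) | b) = -1 := by
  have hm : Odd m := Nat.odd_iff.mpr (by omega)
  rw [jacobiSym.quadratic_reciprocity_one_mod_four' hm hb4, jacobi_of_dvd_succ hm hbm,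
      ZMod.χ₄_nat_three_mod_four hm4]

theorem coprime_of_dvd_succ {m b : ℕ} (h : m ∣ b + 1) : Nat.Coprime b m := by
  have h1 : Nat.gcd b m ∣ 1 := by
    have h2 : Nat.gcd b m ∣ b + 1 := (Nat.gcd_dvd_right b m).trans h
    exact (Nat.dvd_add_right (Nat.gcd_dvd_left b m)).mp h2
  exact Nat.eq_one_of_dvd_one h1

theorem coprime_of_dvd_add_two {m r : ℕ} (hm : Odd m) (j : ℕ) (h : m ∣ j * r + 2) :
    Nat.Coprime r m := by
  have h1 : Nat.gcd r m ∣ 2 := by
    have h2 : Nat.gcd r m ∣ j * r + 2 := (Nat.gcd_dvd_right r m).trans h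
    exact (Nat.dvd_add_right (Dvd.dvd.mul_left (Nat.gcd_dvd_left r m) j)).mp h2
  have h3 : Nat.gcd r m ∣ m := Nat.gcd_dvd_right r m
  have h4 : Nat.Coprime (Nat.gcd r m) 2 :=
    Nat.Coprime.coprime_dvd_left h3 (Nat.coprime_two_right.mpr hm)
  exact Nat.Coprime.eq_one_of_dvd h4 h1

/-- Chinese remainder: a number in a prescribed class modulo `8` and `≡ -1` modulo odd `m`. -/
theorem exists_crt_eight {m : ℕ} (hm : Odd m) (t : ℕ) : ∃ b, b % 8 = t % 8 ∧ m ∣ b + 1 := by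
  have hcop : Nat.Coprime 8 m := by
    have h2 : Nat.Coprime 2 m := Nat.coprime_two_left.mpr hm
    exact Nat.Coprime.pow_left 3 h2
  obtain ⟨b, hb8, hbm⟩ := Nat.chineseRemainder hcop t (m - 1)
  refine ⟨b, hb8, ?_⟩
  have hm1 : 1 ≤ m := hm.pos
  have h1 : b + 1 ≡ m - 1 + 1 [MOD m] := Nat.ModEq.add_right 1 hbm
  rw [Nat.sub_add_cancel hm1] at h1
  exact (Nat.modEq_zero_iff_dvd).mp (h1.trans ((Nat.modEq_zero_iff_dvd).mpr dvd_rfl))

theorem jacobi_two_pow_mul (e m b : ℕ) (hb : Odd b) :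
    J((((2 ^ e * m : ℕ)) : ℤ) | b) = (ZMod.χ₈ b) ^ e * J((m : ℤ) | b) := by
  push_cast
  rw [jacobiSym.mul_left, jacobiSym.pow_left, jacobiSym.at_two hb]

end Vale.Agent.Lib.P016

namespace Vale.Agent.Lib.P016

open scoped NumberTheorySymbols

/-- A squarefree `d ≡ 1 (mod 4)`, `d ≠ 1`, has a prime factor `≥ 5`. -/
theorem exists_prime_ge_five {d : ℕ} (hd : Squarefree d) (hd4 : d % 4 = 1) (hd1 : d ≠ 1) :
    ∃ l, l.Prime ∧ 5 ≤ l ∧ l ∣ d := by
  have key : ∀ n : ℕ, n % 2 = 1 → n ≠ 1 → ¬ 3 ∣ n → ∃ l, l.Prime ∧ 5 ≤ l ∧ l ∣ n := by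
    intro n hn2 hn1 hn3
    have hp := Nat.minFac_prime hn1
    have hdvd := Nat.minFac_dvd n
    refine ⟨n.minFac, hp, ?_, hdvd⟩
    have h2 : n.minFac ≠ 2 := by
      intro h
      rw [h] at hdvd
      omega
    have h3 : n.minFac ≠ 3 := by
      intro h
      rw [h] at hdvd
      exact hn3 hdvd
    have h4 : n.minFac ≠ 4 := by
      intro h
      rw [h] at hp
      exact absurd hp (by decide)
    have := hp.two_le
    omega
  by_cases h3 : 3 ∣ d
  · obtain ⟨d', rfl⟩ := h3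
    have hcop : Nat.Coprime 3 d' := (Nat.squarefree_mul_iff.mp hd).1
    have hd'3 : ¬ 3 ∣ d' := fun h => by
      have := Nat.Coprime.eq_one_of_dvd hcop h
      omega
    obtain ⟨l, hl, hl5, hld⟩ := key d' (by omega) (by omega) hd'3
    exact ⟨l, hl, hl5, hld.mul_left 3⟩
  · exact key d (by omega) hd1 h3

/-- For a non-square `m ≡ 1 (mod 4)` there is a residue `x = c + 1` with `J(x | m) = -1` such
that both `x` and `x - 1` are coprime to `m`. -/
theorem exists_nonresidue_class {m : ℕ} (hm4 : m % 4 = 1) (hns : ¬ IsSquare m) :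
    ∃ c : ℕ, Nat.Coprime c m ∧ Nat.Coprime (c + 1) m ∧ J(((c + 1 : ℕ) : ℤ) | m) = -1 := by
  have hm : Odd m := Nat.odd_iff.mpr (by omega)
  have hm0 : m ≠ 0 := by omega
  obtain ⟨d, s, hsd, hd⟩ := Nat.sq_mul_squarefree m
  have hs_odd : Odd s := by
    by_contra h
    have h' : Even s := Nat.not_odd_iff_even.mp h
    have h2 : Even m := by
      rw [← hsd]
      exact ((Nat.even_pow.mpr ⟨h', by norm_num⟩)).mul_right d
    exact (Nat.not_even_iff_odd.mpr hm) h2
  have hs2 : s ^ 2 % 4 = 1 := by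
    obtain ⟨j, rfl⟩ := hs_odd
    have : (2 * j + 1) ^ 2 = 4 * (j * j + j) + 1 := by ring
    rw [this]
    omega
  have hd4 : d % 4 = 1 := by
    have h := hm4
    rw [← hsd, Nat.mul_mod, hs2] at h
    omega
  have hd1 : d ≠ 1 := by
    rintro rfl
    apply hns
    exact ⟨s, by rw [← hsd]; ring⟩
  obtain ⟨l, hl, hl5, hld⟩ := exists_prime_ge_five hd hd4 hd1
  obtain ⟨d₁, rfl⟩ := hld
  have hcop_l_d₁ : Nat.Coprime l d₁ := (Nat.squarefree_mul_iff.mp hd).1
  have : Fact l.Prime := ⟨hl⟩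
  have hl_odd : l % 2 = 1 := by
    rcases hl.eq_two_or_odd with h | h
    · omega
    · exact h
  have hmod : (l % 4 = 1 ∧ d₁ % 4 = 1) ∨ (l % 4 = 3 ∧ d₁ % 4 = 3) := by
    have h := hd4
    rw [Nat.mul_mod] at h
    have h1 : l % 4 < 4 := Nat.mod_lt _ (by norm_num)
    have h2 : d₁ % 4 < 4 := Nat.mod_lt _ (by norm_num)
    have h3 : l % 4 = 1 ∨ l % 4 = 3 := by omega
    rcases h3 with h3 | h3
    · left
      rw [h3] at h
      omega
    · right
      rw [h3] at h
      omega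
  have hd₁_odd : Odd d₁ := Nat.odd_iff.mpr (by omega)
  -- split off the `l`-part of `m`
  obtain ⟨v, m₁, hlm₁, hmv⟩ := Nat.exists_eq_pow_mul_and_not_dvd hm0 l hl.ne_one
  have hcop_l_m₁ : Nat.Coprime l m₁ := (Nat.Prime.coprime_iff_not_dvd hl).mpr hlm₁
  have hm₁_odd : Odd m₁ := by
    rw [hmv] at hm
    exact (Nat.odd_mul.mp hm).2
  have hd₁m₁ : d₁ ∣ m₁ := by
    have h1 : d₁ ∣ l ^ v * m₁ := by
      rw [← hmv, ← hsd]
      exact Dvd.dvd.mul_left (Dvd.intro_left l rfl) (s ^ 2)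
    exact Nat.Coprime.dvd_of_dvd_mul_left (Nat.Coprime.pow_right v hcop_l_d₁.symm) h1
  -- the residue modulo `l`
  obtain ⟨u, hu0, hu1, huJ⟩ : ∃ u : ℕ, ¬ l ∣ u ∧ ¬ l ∣ u + 1 ∧
      J(((u + 1 : ℕ) : ℤ) | l) * ZMod.χ₄ d₁ = -1 := by
    rcases hmod with ⟨hl4, hd₁4⟩ | ⟨hl4, hd₁4⟩
    · obtain ⟨w, hw⟩ := FiniteField.exists_nonsquare (F := ZMod l)
        (by rw [ZMod.ringChar_zmod_n]; omega)
      have hw0 : w ≠ 0 := by
        rintro rfl
        exact hw IsSquare.zero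
      have hw1 : w ≠ 1 := by
        rintro rfl
        exact hw IsSquare.one
      have hval0 : w.val ≠ 0 := by
        intro h
        exact hw0 ((ZMod.val_eq_zero w).mp h)
      have hval1 : w.val ≠ 1 := by
        intro h
        apply hw1
        have h2 := ZMod.natCast_zmod_val w
        rw [h] at h2
        rw [← h2]
        simp
      have hvallt : w.val < l := ZMod.val_lt w
      refine ⟨w.val - 1, ?_, ?_, ?_⟩
      · intro h
        have := Nat.le_of_dvd (by omega) h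
        omega
      · rw [Nat.sub_add_cancel (by omega)]
        intro h
        have := Nat.le_of_dvd (by omega) h
        omega
      · rw [Nat.sub_add_cancel (by omega), ZMod.χ₄_nat_one_mod_four hd₁4, mul_one,
          ← jacobiSym.legendreSym.to_jacobiSym, legendreSym.eq_neg_one_iff]
        have h2 : (((w.val : ℕ) : ℤ) : ZMod l) = w := by
          rw [Int.cast_natCast]
          exact ZMod.natCast_zmod_val w
        rw [h2]
        exact hw
    · refine ⟨3, ?_, ?_, ?_⟩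
      · intro h
        have := Nat.le_of_dvd (by omega) h
        omega
      · intro h
        have := Nat.le_of_dvd (by omega) h
        omega
      · rw [ZMod.χ₄_nat_three_mod_four hd₁4]
        have h2 : (((3 + 1 : ℕ)) : ℤ) = 2 ^ 2 := by norm_num
        rw [h2, jacobiSym.sq_one']
        · norm_num
        · rw [show (2 : ℤ) = ((2 : ℕ) : ℤ) by norm_num, Int.gcd_natCast_natCast]
          exact Nat.coprime_two_left.mpr (Nat.odd_iff.mpr hl_odd)
  -- Chinese remainder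
  obtain ⟨x, hxl, hxm₁⟩ := Nat.chineseRemainder hcop_l_m₁ (u + 1) (m₁ - 1)
  have hm₁pos : 1 ≤ m₁ := hm₁_odd.pos
  have hm₁x : m₁ ∣ x + 1 := by
    have h1 : x + 1 ≡ m₁ - 1 + 1 [MOD m₁] := Nat.ModEq.add_right 1 hxm₁
    rw [Nat.sub_add_cancel hm₁pos] at h1
    exact (Nat.modEq_zero_iff_dvd).mp (h1.trans ((Nat.modEq_zero_iff_dvd).mpr dvd_rfl))
  have hlx : ¬ l ∣ x := fun h => hu1 ((Nat.ModEq.dvd_iff hxl dvd_rfl).mp h)
  have hx0 : x ≠ 0 := by
    rintro rfl
    exact hlx (dvd_zero l)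
  have hx1 : x - 1 + 1 = x := Nat.sub_add_cancel (by omega)
  have hlx1 : ¬ l ∣ x - 1 := by
    intro h
    apply hu0
    have h1 : x - 1 ≡ u [MOD l] := by
      apply Nat.ModEq.add_right_cancel' 1
      rw [hx1]
      exact hxl
    exact (Nat.ModEq.dvd_iff h1 dvd_rfl).mp h
  have hcop_x_m : Nat.Coprime x m := by
    rw [hmv]
    apply Nat.Coprime.mul_right
    · exact Nat.Coprime.pow_right v ((Nat.Prime.coprime_iff_not_dvd hl).mpr hlx).symm
    · exact coprime_of_dvd_succ hm₁x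
  have hcop_x1_m : Nat.Coprime (x - 1) m := by
    rw [hmv]
    apply Nat.Coprime.mul_right
    · exact Nat.Coprime.pow_right v ((Nat.Prime.coprime_iff_not_dvd hl).mpr hlx1).symm
    · apply coprime_of_dvd_add_two hm₁_odd 1
      have : 1 * (x - 1) + 2 = x + 1 := by omega
      rw [this]
      exact hm₁x
  refine ⟨x - 1, hcop_x1_m, by rw [hx1]; exact hcop_x_m, ?_⟩
  rw [hx1, ← hsd]
  have hs0 : s ≠ 0 := by
    rintro rfl
    simp at hsd
    omega
  have : NeZero (s ^ 2) := ⟨pow_ne_zero 2 hs0⟩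
  have : NeZero l := ⟨hl.ne_zero⟩
  have : NeZero d₁ := ⟨by rintro rfl; simp at hd₁_odd⟩
  have : NeZero (l * d₁) := ⟨mul_ne_zero hl.ne_zero (NeZero.ne d₁)⟩
  rw [jacobiSym.mul_right, jacobiSym.mul_right, jacobiSym.pow_right, jacobiSym.sq_one, one_mul]
  · have h1 : J((x : ℤ) | l) = J(((u + 1 : ℕ) : ℤ) | l) := by
      apply jacobiSym.mod_left'
      exact (Int.natCast_modEq_iff.mpr hxl)
    rw [h1, jacobi_of_dvd_succ hd₁_odd (hd₁m₁.trans hm₁x)]
    exact huJ
  · rw [Int.gcd_natCast_natCast]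
    apply Nat.Coprime.coprime_dvd_right _ hcop_x_m
    rw [← hsd]
    exact Dvd.dvd.mul_right (dvd_pow_self s (by norm_num)) (l * d₁)

end Vale.Agent.Lib.P016

namespace Vale.Agent.Lib.P016

open scoped NumberTheorySymbols

theorem chi8_of_mod_eight_seven {b : ℕ} (h : b % 8 = 7) : ZMod.χ₈ b = 1 := by
  rw [ZMod.χ₈_nat_eq_if_mod_eight]
  have h2 : b % 2 ≠ 0 := by omega
  simp [h2, h]

theorem chi8_of_mod_eight_three {b : ℕ} (h : b % 8 = 3) : ZMod.χ₈ b = -1 := by
  rw [ZMod.χ₈_nat_eq_if_mod_eight]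
  have h2 : b % 2 ≠ 0 := by omega
  simp [h2, h]

theorem chi8_pow_even {b e : ℕ} (h : b % 2 = 1) (he : Even e) : ZMod.χ₈ b ^ e = 1 := by
  have h1 : ZMod.χ₈ b = 1 ∨ ZMod.χ₈ b = -1 := by
    rw [ZMod.χ₈_nat_eq_if_mod_eight]
    have h2 : b % 2 ≠ 0 := by omega
    simp only [h2, if_false]
    split_ifs
    · left; rfl
    · right; rfl
  rcases h1 with h1 | h1
  · rw [h1, one_pow]
  · rw [h1, Even.neg_one_pow he]

/-- Passing from an admissible residue `b` to the parameter `r = (b - 1) / 2 ^ k`. -/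
theorem finish {a : ℤ} {e m : ℕ} (_hm : Odd m) (hn : a.natAbs = 2 ^ e * m) (k : ℕ)
    (hk : k = 1 ∨ k = 2) (b : ℕ) (hb : b % 2 ^ (k + 1) = 2 ^ k + 1) (hcb : Nat.Coprime b m)
    (hcb1 : Nat.Coprime (b - 1) m) (hJ : J(a | b) = -1) :
    ∃ k r : ℕ, (k = 1 ∨ k = 2) ∧ Odd r ∧ Nat.Coprime r a.natAbs ∧
      Nat.Coprime (2 ^ k * r + 1) a.natAbs ∧ J(a | 2 ^ k * r + 1) = -1 := by
  have hbodd : Odd b := by
    rcases hk with rfl | rfl
    · norm_num at hb
      exact Nat.odd_iff.mpr (by omega)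
    · norm_num at hb
      exact Nat.odd_iff.mpr (by omega)
  obtain ⟨r, hr, hbr⟩ : ∃ r, Odd r ∧ 2 ^ k * r + 1 = b := by
    rcases hk with rfl | rfl
    · norm_num at hb
      exact ⟨b / 2, Nat.odd_iff.mpr (by omega), by omega⟩
    · norm_num at hb
      exact ⟨b / 4, Nat.odd_iff.mpr (by omega), by omega⟩
  refine ⟨k, r, hk, hr, ?_, ?_, ?_⟩
  · rw [hn]
    apply Nat.Coprime.mul_right
    · exact Nat.Coprime.pow_right e (Nat.coprime_two_right.mpr hr)
    · apply Nat.Coprime.coprime_dvd_left _ hcb1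
      rw [← hbr]
      exact ⟨2 ^ k, by rw [Nat.add_sub_cancel, mul_comm]⟩
  · rw [hbr, hn]
    apply Nat.Coprime.mul_right
    · exact Nat.Coprime.pow_right e (Nat.coprime_two_right.mpr hbodd)
    · exact hcb
  · rw [hbr]
    exact hJ

/-- For every non-square integer `a` there are `k ∈ {1, 2}` and an odd `r` coprime to `a` such
that `b = 2 ^ k r + 1` is coprime to `a` and `J(a | b) = -1`. -/
theorem exists_good (a : ℤ) (hsq : ¬ IsSquare a) :
    ∃ k r : ℕ, (k = 1 ∨ k = 2) ∧ Odd r ∧ Nat.Coprime r a.natAbs ∧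
      Nat.Coprime (2 ^ k * r + 1) a.natAbs ∧ J(a | 2 ^ k * r + 1) = -1 := by
  have hn0 : a.natAbs ≠ 0 := by
    intro h
    apply hsq
    rw [Int.natAbs_eq_zero.mp h]
    exact IsSquare.zero
  obtain ⟨e, m, hm, hn⟩ := Nat.exists_eq_two_pow_mul_odd hn0
  -- the cases where `b ≡ -1 (mod m)` works
  have easy : ∀ (k : ℕ) (hk : k = 1 ∨ k = 2) (t : ℕ) (ht : t % 2 ^ (k + 1) = 2 ^ k + 1)
      (ht8 : t < 8),
      (∀ b : ℕ, b % 8 = t → m ∣ b + 1 → J(a | b) = -1) →
      ∃ k r : ℕ, (k = 1 ∨ k = 2) ∧ Odd r ∧ Nat.Coprime r a.natAbs ∧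
        Nat.Coprime (2 ^ k * r + 1) a.natAbs ∧ J(a | 2 ^ k * r + 1) = -1 := by
    intro k hk t ht ht8 hJ
    obtain ⟨b, hb8, hbm⟩ := exists_crt_eight hm t
    rw [Nat.mod_eq_of_lt ht8] at hb8
    have ht1 : 1 ≤ t := by
      rcases Nat.eq_zero_or_pos t with h | h
      · subst h
        simp at ht
      · exact h
    have hb1 : 1 ≤ b := by omega
    refine finish hm hn k hk b ?_ (coprime_of_dvd_succ hbm) ?_ (hJ b hb8 hbm)
    · rcases hk with rfl | rfl
      · norm_num at ht ⊢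
        omega
      · norm_num at ht ⊢
        omega
    · apply coprime_of_dvd_add_two hm 1
      have : 1 * (b - 1) + 2 = b + 1 := by omega
      rw [this]
      exact hbm
  rcases Int.natAbs_eq a with hpos | hneg
  · rcases Nat.even_or_odd e with he | he
    · rcases Nat.odd_mod_four_iff.mp (Nat.odd_iff.mp hm) with hm4 | hm4
      · -- `a = 4 ^ j * m`, `m ≡ 1 (mod 4)` not a square
        have hmns : ¬ IsSquare m := by
          rintro ⟨s, hs⟩
          apply hsq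
          obtain ⟨j, hj⟩ := he
          refine ⟨((2 ^ j * s : ℕ) : ℤ), ?_⟩
          rw [hpos, hn, hs, hj, ← Nat.cast_mul]
          congr 1
          ring
        obtain ⟨c, hc, hc1, hcJ⟩ := exists_nonresidue_class hm4 hmns
        have hcop4 : Nat.Coprime 4 m := by
          have h2 : Nat.Coprime 2 m := Nat.coprime_two_left.mpr hm
          exact Nat.Coprime.pow_left 2 h2
        obtain ⟨b, hb4, hbm⟩ := Nat.chineseRemainder hcop4 3 (c + 1)
        have hb4' : b % 4 = 3 := hb4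
        have hb1 : b - 1 + 1 = b := Nat.sub_add_cancel (by omega)
        have hbodd : Odd b := Nat.odd_iff.mpr (by omega)
        refine finish hm hn 1 (Or.inl rfl) b (by norm_num; omega) ?_ ?_ ?_
        · have := Nat.ModEq.gcd_eq hbm
          unfold Nat.Coprime
          rw [this]
          exact hc1
        · have h1 : b - 1 ≡ c [MOD m] := by
            apply Nat.ModEq.add_right_cancel' 1
            rw [hb1]
            exact hbm
          have := Nat.ModEq.gcd_eq h1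
          unfold Nat.Coprime
          rw [this]
          exact hc
        · rw [hpos, hn, jacobi_two_pow_mul e m b hbodd, chi8_pow_even (by omega) he, one_mul,
            jacobiSym.quadratic_reciprocity_one_mod_four hm4 hbodd]
          have h1 : J((b : ℤ) | m) = J(((c + 1 : ℕ) : ℤ) | m) := by
            apply jacobiSym.mod_left'
            exact (Int.natCast_modEq_iff.mpr hbm)
          rw [h1]
          exact hcJ
      · -- `a = 4 ^ j * m`, `m ≡ 3 (mod 4)`: `k = 2`, `b ≡ 5 (mod 8)`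
        apply easy 2 (Or.inr rfl) 5 (by norm_num) (by norm_num)
        intro b hb8 hbm
        have hbodd : Odd b := Nat.odd_iff.mpr (by omega)
        rw [hpos, hn, jacobi_two_pow_mul e m b hbodd, chi8_pow_even (by omega) he, one_mul]
        exact jacobi_eq_neg_one_of_one_mod_four hm4 (by omega) hbm
    · -- `a = 2 ^ e * m`, `e` odd: `k = 1`, `b ≡ 3 (mod 8)`
      apply easy 1 (Or.inl rfl) 3 (by norm_num) (by norm_num)
      intro b hb8 hbm
      have hbodd : Odd b := Nat.odd_iff.mpr (by omega)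
      rw [hpos, hn, jacobi_two_pow_mul e m b hbodd, chi8_of_mod_eight_three hb8,
        Odd.neg_one_pow he, jacobi_eq_one_of_three_mod_four hm (by omega) hbm]
      norm_num
  · -- `a < 0`: `k = 1`, `b ≡ 7 (mod 8)`
    apply easy 1 (Or.inl rfl) 7 (by norm_num) (by norm_num)
    intro b hb8 hbm
    have hbodd : Odd b := Nat.odd_iff.mpr (by omega)
    rw [hneg, hn, jacobiSym.neg _ hbodd, jacobi_two_pow_mul e m b hbodd,
      chi8_of_mod_eight_seven hb8, one_pow, one_mul,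
      jacobi_eq_one_of_three_mod_four hm (by omega) hbm, ZMod.χ₄_nat_three_mod_four (by omega)]
    norm_num

end Vale.Agent.Lib.P016
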